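import Mathlib

/-!
# P112, chapter (D), block (D1): greedy selection of dense tubes (abstract part)
-/

open MeasureTheory Set
open scoped ENNReal

namespace Vale.Agent.P112.H587

variable {α : Type*} [MeasurableSpace α] {μ : Measure α} {T : Type*}

lemma card_bound {V : T → Set α} {E : Set α} {m : ℝ≥0∞}
    (S : Finset T) (hmeas : ∀ t ∈ S, MeasurableSet (V t)) (hsub : ∀ t ∈ S, V t ⊆ E)
    (hdis : (S : Set T).Pairwise fun s t => Disjoint (V s) (V t)) (hd : ∀ t ∈ S, m ≤ μ (V t)) :
    (S.card : ℝ≥0∞) * m ≤ μ E := by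
  calc (S.card : ℝ≥0∞) * m = ∑ _t ∈ S, m := by rw [Finset.sum_const, nsmul_eq_mul]
    _ ≤ ∑ t ∈ S, μ (V t) := Finset.sum_le_sum hd
    _ = μ (⋃ t ∈ S, V t) := (measure_biUnion_finset hdis hmeas).symm
    _ ≤ μ E := measure_mono (iUnion₂_subset hsub)

/-- A finset of maximal cardinality among the finsets with property `P`, all of bounded card. -/
lemma exists_max_card {P : Finset T → Prop} (h0 : P ∅) {N : ℕ} (hN : ∀ S, P S → S.card ≤ N) :
    ∃ S, P S ∧ ∀ S', P S' → S'.card ≤ S.card := by
  classical
  have hex : ∃ k, ∃ S, P S ∧ S.card = k := ⟨0, ∅, h0, rfl⟩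
  have hb : ∀ k, (∃ S, P S ∧ S.card = k) → k ≤ N := by
    rintro k ⟨S, hS, rfl⟩
    exact hN S hS
  obtain ⟨S, hS, hc⟩ := Nat.findGreatest_spec (P := fun k => ∃ S, P S ∧ S.card = k)
    (Nat.zero_le N) ⟨∅, h0, rfl⟩
  refine ⟨S, hS, fun S' hS' => ?_⟩
  rw [hc]
  exact Nat.le_findGreatest (hb _ ⟨S', hS', rfl⟩) ⟨S', hS', rfl⟩

/-- **Greedy selection by decreasing length** (increasing level). No finiteness of the set of
candidates is assumed: at each level we take a disjoint family of maximal cardinality. -/
theorem greedy_abs (lev : T → ℕ) (V : T → Set α) (Cand : Set T) {E : Set α} (hE : μ E ≠ ∞)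
    (hmeas : ∀ t ∈ Cand, MeasurableSet (V t)) (hsub : ∀ t ∈ Cand, V t ⊆ E)
    (m : ℕ → ℝ≥0∞) (hm : ∀ i, 0 < m i) (hd : ∀ t ∈ Cand, m (lev t) ≤ μ (V t)) (n : ℕ) :
    ∃ MM : Finset T, (∀ t ∈ MM, t ∈ Cand ∧ lev t < n) ∧
      ((MM : Set T).Pairwise fun s t => Disjoint (V s) (V t)) ∧
      ∀ t ∈ Cand, lev t < n → ∃ q ∈ MM, lev q ≤ lev t ∧ ¬ Disjoint (V q) (V t) := by
  classical
  induction n with
  | zero => exact ⟨∅, by simp, by simp, fun t _ h => absurd h (by omega)⟩
  | succ k ih =>
    obtain ⟨MM, h1, h2, h3⟩ := ih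
    set P : Finset T → Prop := fun S => (∀ t ∈ S, t ∈ Cand ∧ lev t = k ∧
      ∀ q ∈ MM, Disjoint (V q) (V t)) ∧ (S : Set T).Pairwise fun s t => Disjoint (V s) (V t)
      with hP
    have hbd : ∃ N : ℕ, ∀ S, P S → S.card ≤ N := by
      have hfin : μ E / m k ≠ ∞ := (ENNReal.div_lt_top hE (hm k).ne').ne
      obtain ⟨N, hN⟩ := ENNReal.exists_nat_gt hfin
      refine ⟨N, fun S hS => ?_⟩
      have hc := card_bound (μ := μ) (V := V) (E := E) (m := m k) S (fun t ht => hmeas t (hS.1 t ht).1)
        (fun t ht => hsub t (hS.1 t ht).1) hS.2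
        (fun t ht => by have := hd t (hS.1 t ht).1; rwa [(hS.1 t ht).2.1] at this)
      have hle : (S.card : ℝ≥0∞) ≤ μ E / m k := by
        by_cases hmt : m k = ∞
        · rcases Finset.eq_empty_or_nonempty S with rfl | ⟨t, ht⟩
          · simp
          · exfalso
            have h4 := hd t (hS.1 t ht).1
            rw [(hS.1 t ht).2.1, hmt] at h4
            have h5 := h4.trans (measure_mono (hsub t (hS.1 t ht).1))
            exact hE (top_le_iff.1 h5)
        · exact (ENNReal.le_div_iff_mul_le (Or.inl (hm k).ne') (Or.inl hmt)).2 hc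
      have : (S.card : ℝ≥0∞) < N := lt_of_le_of_lt hle hN
      exact_mod_cast this.le
    obtain ⟨N, hN⟩ := hbd
    obtain ⟨S, hS, hmax⟩ := exists_max_card (P := P) ⟨by simp, by simp⟩ hN
    refine ⟨MM ∪ S, ?_, ?_, ?_⟩
    · intro t ht
      rcases Finset.mem_union.1 ht with h | h
      · exact ⟨(h1 t h).1, by have := (h1 t h).2; omega⟩
      · exact ⟨(hS.1 t h).1, by have := (hS.1 t h).2.1; omega⟩
    · intro s hs t ht hst
      simp only [Finset.coe_union, mem_union, Finset.mem_coe] at hs ht
      rcases hs with hs | hs <;> rcases ht with ht | ht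
      · exact h2 hs ht hst
      · exact (hS.1 t ht).2.2 s hs
      · exact ((hS.1 s hs).2.2 t ht).symm
      · exact hS.2 hs ht hst
    · intro t ht hlt
      rcases Nat.lt_succ_iff_lt_or_eq.1 hlt with h | h
      · obtain ⟨q, hq, hq1, hq2⟩ := h3 t ht h
        exact ⟨q, Finset.mem_union_left _ hq, hq1, hq2⟩
      · by_cases hex : ∃ q ∈ MM, ¬ Disjoint (V q) (V t)
        · obtain ⟨q, hq, hq2⟩ := hex
          exact ⟨q, Finset.mem_union_left _ hq, by have := (h1 q hq).2; omega, hq2⟩
        · push Not at hex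
          by_contra hno
          push Not at hno
          have hne : ∀ q ∈ S, Disjoint (V q) (V t) := fun q hq =>
            hno q (Finset.mem_union_right _ hq) (by have := (hS.1 q hq).2.1; omega)
          have htS : t ∉ S := by
            intro htS
            have h4 := hne t htS
            rw [disjoint_self] at h4
            have h5 := hd t ht
            rw [show V t = ∅ from h4, measure_empty] at h5
            exact absurd (hm (lev t)) (not_lt.2 h5)
          have hP' : P (insert t S) := by
            refine ⟨?_, ?_⟩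
            · intro r hr
              rcases Finset.mem_insert.1 hr with rfl | hr
              · exact ⟨ht, h, hex⟩
              · exact hS.1 r hr
            · intro a ha b hb hab
              rcases Finset.mem_insert.1 (Finset.mem_coe.1 ha) with ha' | ha' <;>
                rcases Finset.mem_insert.1 (Finset.mem_coe.1 hb) with hb' | hb'
              · exact absurd (ha'.trans hb'.symm) hab
              · rw [ha']; exact (hne b hb').symm
              · rw [hb']; exact hne a ha'
              · exact hS.2 ha' hb' hab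
          have := hmax _ hP'
          rw [Finset.card_insert_of_notMem htS] at this
          omega

end Vale.Agent.P112.H587
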