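import Vale.Agent.P112.H8.GridQ
import Vale.Agent.P112.H587.Greedy

/-!
# P112, chapter (D), block (D1): the greedy family of dense tubes
-/

open MeasureTheory Set
open scoped ENNReal

namespace Vale.Agent.P112.H587

open Vale.Agent.P112.T

/-- A tube: dyadic base cell `{q τ lev x = cell}`, line `y = c + s x`. -/
structure Tu where
  lev : ℕ
  cell : ℤ
  s : ℝ
  c : ℝ

/-- The points of `E` in the `lam`-fattened tube whose slope is within `lam 2^lev` of `s`. -/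
def VT (u : ℝ × ℝ → ℝ) (E : Set (ℝ × ℝ)) (τ lam : ℝ) (t : Tu) : Set (ℝ × ℝ) :=
  {z | z ∈ E ∧ q τ t.lev z.1 = t.cell ∧ |z.2 - t.c - t.s * z.1| ≤ lam ∧
    |u z - t.s| ≤ lam * 2 ^ t.lev}

/-- The pair `(z, k)` is below the tube `t`, with tolerances `a` (slope) and `b` (offset). -/
def Below (u : ℝ × ℝ → ℝ) (τ a b : ℝ) (z : ℝ × ℝ) (k : ℕ) (t : Tu) : Prop :=
  t.lev ≤ k ∧ q τ t.lev z.1 = t.cell ∧ |u z - t.s| ≤ a * 2 ^ k ∧ |z.2 - t.c - t.s * z.1| ≤ b

lemma measurableSet_VT {u : ℝ × ℝ → ℝ} (hu : Measurable u) {E : Set (ℝ × ℝ)}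
    (hE : MeasurableSet E) (τ lam : ℝ) (t : Tu) : MeasurableSet (VT u E τ lam t) := by
  have h1 : MeasurableSet {z : ℝ × ℝ | q τ t.lev z.1 = t.cell} :=
    (H8.q_meas τ t.lev).comp measurable_fst (measurableSet_singleton _)
  have h2 : MeasurableSet {z : ℝ × ℝ | |z.2 - t.c - t.s * z.1| ≤ lam} :=
    measurableSet_le (by fun_prop) measurable_const
  have h3 : MeasurableSet {z : ℝ × ℝ | |u z - t.s| ≤ lam * 2 ^ t.lev} :=
    measurableSet_le (by fun_prop) measurable_const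
  exact hE.inter (h1.inter (h2.inter h3))

lemma VT_subset (u : ℝ × ℝ → ℝ) (E : Set (ℝ × ℝ)) (τ lam : ℝ) (t : Tu) : VT u E τ lam t ⊆ E :=
  fun _ h => h.1

lemma q_nest_le (τ : ℝ) {i j : ℕ} (hij : i ≤ j) {x x' : ℝ} (h : q τ j x = q τ j x') :
    q τ i x = q τ i x' := by
  induction j, hij using Nat.le_induction with
  | base => exact h
  | succ k _ ih => exact ih (H8.q_nest τ k x x' h)

lemma q_dist (τ : ℝ) (i : ℕ) {x x' : ℝ} (h : q τ i x = q τ i x') : |x - x'| ≤ 1 / 2 ^ i := by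
  obtain ⟨c1, c2⟩ := (H8.q_eq_iff τ i x _).1 rfl
  obtain ⟨d1, d2⟩ := (H8.q_eq_iff τ i x' _).1 h.symm
  have h2 : (0 : ℝ) < 2 ^ i := by positivity
  rw [le_div_iff₀ h2]
  have e : |x - x'| * 2 ^ i = |(x - x') * 2 ^ i| := by rw [abs_mul, abs_of_pos h2]
  rw [e, abs_le]
  constructor <;> nlinarith

/-- **Transfer**: if `V q` meets `V t`, `q` longer than `t`, then the pairs below `t` are below
`q`. -/
theorem below_trans {u : ℝ × ℝ → ℝ} {E : Set (ℝ × ℝ)} {τ lam : ℝ} (hlam : 0 ≤ lam) {p t : Tu}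
    (hle : p.lev ≤ t.lev) (hnd : ¬ Disjoint (VT u E τ lam p) (VT u E τ lam t)) {z : ℝ × ℝ}
    {k : ℕ} (hb : Below u τ lam lam z k t) : Below u τ (3 * lam) (5 * lam) z k p := by
  obtain ⟨w, ⟨_, hp1, hp2, hp3⟩, ⟨_, ht1, ht2, ht3⟩⟩ := not_disjoint_iff.1 hnd
  obtain ⟨h1, h2, h3, h4⟩ := hb
  have hzw : q τ t.lev z.1 = q τ t.lev w.1 := h2.trans ht1.symm
  have hd := q_dist τ t.lev hzw
  have e1 : (2 : ℝ) ^ p.lev ≤ 2 ^ t.lev := pow_le_pow_right₀ (by norm_num) hle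
  have e2 : (2 : ℝ) ^ t.lev ≤ 2 ^ k := pow_le_pow_right₀ (by norm_num) h1
  have e0 : (0 : ℝ) < 2 ^ t.lev := by positivity
  have hs : |t.s - p.s| ≤ 2 * lam * 2 ^ t.lev := by
    have := abs_sub_le t.s (u w) p.s
    rw [abs_sub_comm t.s (u w)] at this
    nlinarith
  refine ⟨hle.trans h1, (q_nest_le τ hle hzw).trans hp1, ?_, ?_⟩
  · have := abs_sub_le (u z) t.s p.s
    nlinarith
  · have hm : |(t.s - p.s) * (z.1 - w.1)| ≤ 2 * lam := by
      rw [abs_mul]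
      calc |t.s - p.s| * |z.1 - w.1| ≤ (2 * lam * 2 ^ t.lev) * (1 / 2 ^ t.lev) :=
            mul_le_mul hs hd (abs_nonneg _) (by positivity)
        _ = 2 * lam := by field_simp
    have key : z.2 - p.c - p.s * z.1 = (z.2 - t.c - t.s * z.1) - (w.2 - t.c - t.s * w.1)
        + (w.2 - p.c - p.s * w.1) + (t.s - p.s) * (z.1 - w.1) := by ring
    rw [key]
    have a1 := abs_le.1 h4
    have a2 := abs_le.1 ht2
    have a3 := abs_le.1 hp2
    have a4 := abs_le.1 hm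
    rw [abs_le]
    constructor <;> linarith [a1.1, a1.2, a2.1, a2.2, a3.1, a3.2, a4.1, a4.2]

/-- **(D1), greedy family**: any set `Cand` of tubes with `|V t| ≥ d 2^(-lev)` contains a finite
subfamily with disjoint `V`, such that every pair below a tube of `Cand` is below a tube of the
subfamily; and `∑ 2^(-lev) ≤ |E| / d`. -/
theorem greedy_tubes {u : ℝ × ℝ → ℝ} (hu : Measurable u) {E : Set (ℝ × ℝ)}
    (hE : MeasurableSet E) (hfin : volume E ≠ ∞) (τ : ℝ) {lam : ℝ} (hlam : 0 ≤ lam) {d : ℝ}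
    (hd : 0 < d) (n : ℕ) (Cand : Set Tu)
    (hc : ∀ t ∈ Cand, t.lev < n ∧ ENNReal.ofReal (d / 2 ^ t.lev) ≤ volume (VT u E τ lam t)) :
    ∃ MM : Finset Tu, (∀ t ∈ MM, t ∈ Cand) ∧
      ((MM : Set Tu).Pairwise fun s t => Disjoint (VT u E τ lam s) (VT u E τ lam t)) ∧
      (∀ t ∈ Cand, ∀ (z : ℝ × ℝ) (k : ℕ), Below u τ lam lam z k t →
        ∃ p ∈ MM, Below u τ (3 * lam) (5 * lam) z k p) ∧
      ∑ t ∈ MM, ENNReal.ofReal (d / 2 ^ t.lev) ≤ volume E := by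
  obtain ⟨MM, h1, h2, h3⟩ := greedy_abs (μ := volume) Tu.lev (VT u E τ lam) Cand hfin
    (fun t _ => measurableSet_VT hu hE τ lam t) (fun t _ => VT_subset u E τ lam t)
    (fun i => ENNReal.ofReal (d / 2 ^ i)) (fun i => ENNReal.ofReal_pos.2 (by positivity))
    (fun t ht => (hc t ht).2) n
  refine ⟨MM, fun t ht => (h1 t ht).1, h2, ?_, ?_⟩
  · intro t ht z k hb
    obtain ⟨p, hp, hle, hnd⟩ := h3 t ht (hc t ht).1
    exact ⟨p, hp, below_trans hlam hle hnd hb⟩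
  · calc ∑ t ∈ MM, ENNReal.ofReal (d / 2 ^ t.lev)
        ≤ ∑ t ∈ MM, volume (VT u E τ lam t) :=
          Finset.sum_le_sum fun t ht => (hc t (h1 t ht).1).2
      _ = volume (⋃ t ∈ MM, VT u E τ lam t) :=
          (measure_biUnion_finset h2 fun t _ => measurableSet_VT hu hE τ lam t).symm
      _ ≤ volume E := measure_mono (iUnion₂_subset fun t _ => VT_subset u E τ lam t)

/-- Real form of the count. -/
theorem sum_pow_le_of_greedy {E : Set (ℝ × ℝ)} (hfin : volume E ≠ ∞) {d : ℝ} (hd : 0 < d)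
    (MM : Finset Tu) (h : ∑ t ∈ MM, ENNReal.ofReal (d / 2 ^ t.lev) ≤ volume E) :
    ∑ t ∈ MM, (1 / 2 : ℝ) ^ t.lev ≤ (volume E).toReal / d := by
  rw [← ENNReal.ofReal_sum_of_nonneg (fun t _ => by positivity)] at h
  have h2 := (ENNReal.ofReal_le_iff_le_toReal hfin).1 h
  rw [le_div_iff₀ hd]
  calc (∑ t ∈ MM, (1 / 2 : ℝ) ^ t.lev) * d = ∑ t ∈ MM, d / 2 ^ t.lev := by
        rw [Finset.sum_mul]
        refine Finset.sum_congr rfl fun t _ => ?_
        rw [one_div, inv_pow]; field_simp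
    _ ≤ _ := h2

end Vale.Agent.P112.H587
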