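import Vale.Agent.P112.H694.Sup

/-!
# P112, chapter (G), [LTOP], part 1: few dense tops of one level near a point

For a field with a small Lipschitz constant in `y`, the number of dense thin tops of one level
near a point is at most `C 2 ^ ν R`.
-/

open MeasureTheory Set
open scoped ENNReal

set_option linter.dupNamespace false

namespace Vale.Agent.P112.H587

open T F30

variable {κ : Type}

/-- `ζ` is near the top `m` (tolerance `R` for the offset). -/
def NearT (T : Tops κ) (R : ℝ) (m : κ) (ζ : ℝ × ℝ) : Prop :=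
  |ζ.1 - T.x m| ≤ 2 / 2 ^ T.j m ∧ |ζ.2 - T.line m ζ.1| ≤ R

theorem measurableSet_V {u : ℝ × ℝ → ℝ} (hu : Measurable u) (T : Tops κ) (H : ℝ) (m : κ) :
    MeasurableSet (T.V u H m) := by
  unfold Tops.V
  have h1 : MeasurableSet {z : ℝ × ℝ | q 0 (T.j m) z.1 = q 0 (T.j m) (T.x m)} :=
    ((H724.measurable_q 0 (T.j m)).comp measurable_fst) (measurableSet_singleton _)
  have h2 : Measurable fun z : ℝ × ℝ => |z.2 - T.line m z.1| := by
    unfold Tops.line
    fun_prop
  have h3 : Measurable fun z : ℝ × ℝ => |u z - T.s m| := by fun_prop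
  exact h1.inter ((measurableSet_le h2 measurable_const).inter
    (measurableSet_le h3 measurable_const))

/-- bounded overlap: sum of the measures against the measure of the union -/
theorem sum_volume_le {ι : Type*} {V : ι → Set (ℝ × ℝ)} (hV : ∀ m, MeasurableSet (V m)) {C0 : ℝ}
    (F : Finset ι)
    (hov : ∀ z, ∀ G : Finset ι, (∀ m ∈ G, z ∈ V m) → (G.card : ℝ) ≤ C0) :
    ∑ m ∈ F, volume (V m) ≤ ENNReal.ofReal C0 * volume (⋃ m ∈ F, V m) := by
  classical
  have hW : MeasurableSet (⋃ m ∈ F, V m) := Finset.measurableSet_biUnion _ fun m _ => hV m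
  calc ∑ m ∈ F, volume (V m) = ∫⁻ z, ∑ m ∈ F, (V m).indicator 1 z := by
        rw [lintegral_finsetSum _ fun m _ => measurable_one.indicator (hV m)]
        exact Finset.sum_congr rfl fun m _ => (lintegral_indicator_one (hV m)).symm
    _ ≤ ∫⁻ z, (⋃ m ∈ F, V m).indicator (fun _ => ENNReal.ofReal C0) z := by
        refine lintegral_mono fun z => ?_
        have h1 : ∑ m ∈ F, (V m).indicator (1 : ℝ × ℝ → ℝ≥0∞) z =
            ((F.filter fun m => z ∈ V m).card : ℝ≥0∞) := by
          rw [Finset.card_filter, Nat.cast_sum]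
          refine Finset.sum_congr rfl fun m _ => ?_
          by_cases h : z ∈ V m
          · simp [h]
          · simp [h]
        rw [h1]
        by_cases hz : z ∈ ⋃ m ∈ F, V m
        · rw [indicator_of_mem hz]
          have h2 := hov z (F.filter fun m => z ∈ V m) fun m hm => (Finset.mem_filter.1 hm).2
          rw [← ENNReal.ofReal_natCast]
          exact ENNReal.ofReal_le_ofReal h2
        · rw [indicator_of_notMem hz]
          have h2 : (F.filter fun m => z ∈ V m) = ∅ := by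
            rw [Finset.filter_eq_empty_iff]
            intro m hm hmz
            exact hz (mem_iUnion₂.2 ⟨m, hm, hmz⟩)
          rw [h2]
          simp
    _ = ENNReal.ofReal C0 * volume (⋃ m ∈ F, V m) := by
        rw [lintegral_indicator hW, setLIntegral_const]

/-- **Few dense tops of one level near a point.** -/
theorem count_level {u : ℝ × ℝ → ℝ} (hu : Measurable u) {e : ℝ} (he0 : 0 ≤ e) (he : e ≤ 1 / 6)
    (hL : ∀ x y y', |u (x, y) - u (x, y')| ≤ e * |y - y'|) (T : Tops κ) {C0 : ℝ}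
    (hC0 : 0 ≤ C0)
    (hov : ∀ z, ∀ F : Finset κ, (∀ m ∈ F, z ∈ T.V u 1 m) → (F.card : ℝ) ≤ C0) {ν : ℕ}
    (hV : ∀ m, ENNReal.ofReal ((1 / 2) ^ (ν + 1) * (1 / 2) ^ T.j m) ≤ volume (T.V u 1 m))
    {R : ℝ} (hR : 0 ≤ R) (ζ : ℝ × ℝ) (i : ℕ) (F : Finset κ)
    (hF : ∀ m ∈ F, T.j m = i ∧ NearT T R m ζ) :
    (F.card : ℝ) ≤ C0 * 2 ^ ν * (480 + 48 * R) := by
  set W : Set (ℝ × ℝ) := ⋃ m ∈ F, T.V u 1 m with hW
  have hWm : MeasurableSet W := Finset.measurableSet_biUnion _ fun m _ => measurableSet_V hu T 1 m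
  have hi : (0 : ℝ) < 2 ^ i := by positivity
  have hi1 : (1 : ℝ) ≤ 2 ^ i := one_le_pow₀ (by norm_num)
  -- geometry of two points over the same abscissa
  have hpt : ∀ m ∈ F, ∀ z ∈ T.V u 1 m, |z.1 - ζ.1| ≤ 3 / 2 ^ i := by
    intro m hm z hz
    obtain ⟨hj, hn1, -⟩ := hF m hm
    have h1 := H724.q_dist hz.1
    rw [hj] at h1 hn1
    have h2 : |z.1 - ζ.1| ≤ |z.1 - T.x m| + |ζ.1 - T.x m| := by
      have : z.1 - ζ.1 = (z.1 - T.x m) - (ζ.1 - T.x m) := by ring
      rw [this]
      exact abs_sub _ _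
    have h3 : (3 : ℝ) / 2 ^ i = 1 / 2 ^ i + 2 / 2 ^ i := by ring
    rw [h3]
    exact h2.trans (add_le_add h1 hn1)
  have hpair : ∀ x y y' : ℝ, (x, y) ∈ W → (x, y') ∈ W → |y - y'| ≤ 40 + 4 * R := by
    intro x y y' hy hy'
    obtain ⟨m, hm, hmy⟩ := mem_iUnion₂.1 hy
    obtain ⟨m', hm', hmy'⟩ := mem_iUnion₂.1 hy'
    obtain ⟨hj, -, hn⟩ := hF m hm
    obtain ⟨hj', -, hn'⟩ := hF m' hm'
    have hx := hpt m hm _ hmy
    obtain ⟨-, ho, hs⟩ := hmy
    obtain ⟨-, ho', hs'⟩ := hmy'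
    rw [hj] at hs
    rw [hj'] at hs'
    simp only at ho ho' hx
    have hU := hL x y y'
    set D := |y - y'| with hD
    set d := |T.s m - T.s m'| with hd
    have hD0 : 0 ≤ D := abs_nonneg _
    have h1 : d ≤ e * D + 6 * 2 ^ i := by
      have e1 : T.s m - T.s m' = -(u (x, y) - T.s m) + (u (x, y) - u (x, y')) +
          (u (x, y') - T.s m') := by ring
      rw [hd, e1]
      refine (abs_add_three _ _ _).trans ?_
      rw [abs_neg]
      linarith
    have h2 : D ≤ 2 + 2 * R + 3 / 2 ^ i * d := by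
      have e1 : y - y' = (y - T.line m x) - (y' - T.line m' x) +
          (-(ζ.2 - T.line m ζ.1) + (ζ.2 - T.line m' ζ.1)) + (x - ζ.1) * (T.s m - T.s m') := by
        unfold Tops.line
        ring
      rw [hD, e1]
      refine (abs_add_three _ _ _).trans ?_
      have e2 : |(y - T.line m x) - (y' - T.line m' x)| ≤ 2 := by
        refine (abs_sub _ _).trans ?_
        linarith
      have e3 : |-(ζ.2 - T.line m ζ.1) + (ζ.2 - T.line m' ζ.1)| ≤ 2 * R := by
        refine (abs_add_le _ _).trans ?_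
        rw [abs_neg]
        linarith
      have e4 : |(x - ζ.1) * (T.s m - T.s m')| ≤ 3 / 2 ^ i * d := by
        rw [abs_mul]
        exact mul_le_mul_of_nonneg_right hx (abs_nonneg _)
      linarith
    have h3 : 3 / 2 ^ i * d ≤ D / 2 + 18 := by
      calc 3 / 2 ^ i * d ≤ 3 / 2 ^ i * (e * D + 6 * 2 ^ i) := by gcongr
        _ = 3 * e * D / 2 ^ i + 18 := by field_simp; ring
        _ ≤ 3 * e * D + 18 := by
            have : 3 * e * D / 2 ^ i ≤ 3 * e * D := div_le_self (by positivity) hi1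
            linarith
        _ ≤ D / 2 + 18 := by nlinarith
    linarith
  -- the volume of the union
  have hvol : volume W ≤ ENNReal.ofReal (6 / 2 ^ i * (40 + 4 * R)) := by
    rw [Measure.volume_eq_prod, Measure.prod_apply hWm]
    have h1 : ∀ x : ℝ, volume (Prod.mk x ⁻¹' W) ≤
        (Icc (ζ.1 - 3 / 2 ^ i) (ζ.1 + 3 / 2 ^ i)).indicator
          (fun _ => ENNReal.ofReal (40 + 4 * R)) x := by
      intro x
      by_cases hx : x ∈ Icc (ζ.1 - 3 / 2 ^ i) (ζ.1 + 3 / 2 ^ i)
      · rw [indicator_of_mem hx]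
        refine (Real.volume_le_diam _).trans (Metric.ediam_le fun y hy y' hy' => ?_)
        rw [edist_dist, Real.dist_eq]
        exact ENNReal.ofReal_le_ofReal (hpair x y y' hy hy')
      · rw [indicator_of_notMem hx]
        have h2 : Prod.mk x ⁻¹' W = ∅ := by
          rw [eq_empty_iff_forall_notMem]
          intro y hy
          apply hx
          obtain ⟨m, hm, hmy⟩ := mem_iUnion₂.1 hy
          have h3 := hpt m hm _ hmy
          rw [abs_le] at h3
          simp only at h3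
          constructor <;> linarith [h3.1, h3.2]
        rw [h2, measure_empty]
    refine (lintegral_mono h1).trans (le_of_eq ?_)
    rw [lintegral_indicator measurableSet_Icc, setLIntegral_const, Real.volume_Icc,
      ← ENNReal.ofReal_mul (by positivity)]
    congr 1
    ring
  -- conclusion
  have h1 := sum_volume_le (fun m => measurableSet_V hu T 1 m) F hov
  have h2 : (F.card : ℝ≥0∞) * ENNReal.ofReal ((1 / 2) ^ (ν + 1) * (1 / 2) ^ i) ≤
      ∑ m ∈ F, volume (T.V u 1 m) := by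
    rw [← nsmul_eq_mul, ← Finset.sum_const]
    refine Finset.sum_le_sum fun m hm => ?_
    have := hV m
    rwa [(hF m hm).1] at this
  have h3 : (F.card : ℝ≥0∞) * ENNReal.ofReal ((1 / 2) ^ (ν + 1) * (1 / 2) ^ i) ≤
      ENNReal.ofReal (C0 * (6 / 2 ^ i * (40 + 4 * R))) := by
    rw [ENNReal.ofReal_mul hC0]
    exact h2.trans (h1.trans (by gcongr))
  rw [← ENNReal.ofReal_natCast, ← ENNReal.ofReal_mul (by positivity),
    ENNReal.ofReal_le_ofReal_iff (by positivity)] at h3
  have h4 : (F.card : ℝ) * ((1 / 2) ^ (ν + 1) * (1 / 2) ^ i) * (2 ^ (ν + 1) * 2 ^ i) =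
      F.card := by
    rw [one_div_pow, one_div_pow]
    field_simp
  rw [← h4]
  calc (F.card : ℝ) * ((1 / 2) ^ (ν + 1) * (1 / 2) ^ i) * (2 ^ (ν + 1) * 2 ^ i)
      ≤ C0 * (6 / 2 ^ i * (40 + 4 * R)) * (2 ^ (ν + 1) * 2 ^ i) := by gcongr
    _ = C0 * 2 ^ ν * (480 + 48 * R) := by
        rw [pow_succ]
        field_simp
        ring

/-- Few dense tops of the levels `< J0` near a point. -/
theorem count_long {u : ℝ × ℝ → ℝ} (hu : Measurable u) {e : ℝ} (he0 : 0 ≤ e) (he : e ≤ 1 / 6)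
    (hL : ∀ x y y', |u (x, y) - u (x, y')| ≤ e * |y - y'|) (T : Tops κ) {C0 : ℝ}
    (hC0 : 0 ≤ C0)
    (hov : ∀ z, ∀ F : Finset κ, (∀ m ∈ F, z ∈ T.V u 1 m) → (F.card : ℝ) ≤ C0) {ν : ℕ}
    (hV : ∀ m, ENNReal.ofReal ((1 / 2) ^ (ν + 1) * (1 / 2) ^ T.j m) ≤ volume (T.V u 1 m))
    {R : ℝ} (hR : 0 ≤ R) (ζ : ℝ × ℝ) (J0 : ℕ) (F : Finset κ)
    (hF : ∀ m ∈ F, T.j m < J0 ∧ NearT T R m ζ) :
    (F.card : ℝ) ≤ J0 * (C0 * 2 ^ ν * (480 + 48 * R)) := by
  classical
  have h1 : F.card = ∑ i ∈ Finset.range J0, (F.filter fun m => T.j m = i).card :=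
    Finset.card_eq_sum_card_fiberwise fun m hm => Finset.mem_coe.2
      (Finset.mem_range.2 (hF m hm).1)
  rw [h1, Nat.cast_sum]
  calc ∑ i ∈ Finset.range J0, ((F.filter fun m => T.j m = i).card : ℝ)
      ≤ ∑ _i ∈ Finset.range J0, C0 * 2 ^ ν * (480 + 48 * R) := by
        refine Finset.sum_le_sum fun i _ => ?_
        refine count_level hu he0 he hL T hC0 hov hV hR ζ i _ fun m hm => ?_
        obtain ⟨hm1, hm2⟩ := Finset.mem_filter.1 hm
        exact ⟨hm2, (hF m hm1).2⟩
    _ = _ := by rw [Finset.sum_const, Finset.card_range, nsmul_eq_mul]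

end Vale.Agent.P112.H587
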